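import Vale.Agent.P284Z.L.Defs
import Vale.Agent.P284.H619.K.AlgD
import Vale.Agent.P284.H136.K8.Ch
import Vale.Agent.P284.H451.K1bA
import Vale.Agent.P284.H419.K.Bas

/-!
# P284Z, block L, piece 2a: local computations
-/

open scoped ContDiff Topology ComplexOrder ComplexConjugate Matrix
open Filter Set Function

noncomputable section

namespace Vale.Agent.P284Z.L.S2a

open Vale.Agent.P272.K Vale.Agent.P284 H608.K H619.K H205.K J

variable {n p q r : ℕ}

theorem pb_jm (b : Cm n → Cm q) (z : Cm n) :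
    pb (jm b z) 1 = H619.K.sq (tL (fderiv ℂ b z)) := by
  ext c d
  unfold pb
  rw [Matrix.mul_one, Matrix.mul_apply]
  rfl

theorem norm_fv_le {w P : Mx n} (hw : w.PosDef) (L : Cm n →L[ℂ] Cm q)
    (hP : (w + H619.K.sq (tL L))⁻¹ = P * Pᴴ) (k : Fin n) : ‖L (fv P k)‖ ≤ 1 := by
  set h := w + H619.K.sq (tL L) with hh
  have hpos : h.PosDef := hw.add_posSemidef (sq_posSemidef _)
  have h1 : Pᴴ * h * P = 1 := by
    have h2 : P * (Pᴴ * h) = 1 := by
      rw [← Matrix.mul_assoc, ← hP]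
      exact Matrix.nonsing_inv_mul _ ((Matrix.isUnit_iff_isUnit_det _).mp hpos.isUnit)
    exact mul_eq_one_comm.mp h2
  have h3 : (Pᴴ * w * P).PosSemidef := hw.posSemidef.conjTranspose_mul_mul_same P
  have h4 : (Pᴴ * H619.K.sq (tL L) * P) k k = ((∑ l, ‖L (fv P k) l‖ ^ 2 : ℝ) : ℂ) := by
    rw [sq_tL, ← Matrix.mul_assoc, ← Matrix.conjTranspose_mul, Matrix.mul_assoc,
      Matrix.mul_apply, Complex.ofReal_sum]
    refine Finset.sum_congr rfl fun l _ => ?_
    have h5 : ((Matrix.of fun l c => conj (tL L l c)) * P) l k = conj (L (fv P k) l) := by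
      rw [← pv_tL, Matrix.mul_apply, pv, map_sum]
      refine Finset.sum_congr rfl fun c _ => ?_
      rw [map_mul, fv, Complex.conj_conj]
      rfl
    rw [Matrix.conjTranspose_apply, h5]
    change conj (conj _) * _ = _
    rw [Complex.conj_conj, Complex.mul_conj, Complex.normSq_eq_norm_sq]
  have h6 : (Pᴴ * w * P) k k + (Pᴴ * H619.K.sq (tL L) * P) k k = 1 := by
    rw [← Matrix.add_apply, ← Matrix.add_mul, ← Matrix.mul_add, ← hh, h1, Matrix.one_apply_eq]
  have h7 := (Complex.le_def.mp (h3.diag_nonneg (i := k))).1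
  have h8 := congrArg Complex.re h6
  rw [h4, Complex.add_re, Complex.ofReal_re, Complex.one_re] at h8
  rw [Complex.zero_re] at h7
  refine (pi_norm_le_iff_of_nonneg zero_le_one).2 fun l => ?_
  have h9 : ‖L (fv P k) l‖ ^ 2 ≤ ∑ l, ‖L (fv P k) l‖ ^ 2 :=
    Finset.single_le_sum (f := fun l => ‖L (fv P k) l‖ ^ 2) (fun l _ => sq_nonneg _)
      (Finset.mem_univ l)
  nlinarith [norm_nonneg (L (fv P k) l)]

/-- the norm of a pull-back -/
theorem pull_le {w : Mx n} (hw : w.PosDef) (L : Cm n →L[ℂ] Cm q) (A : Af q p) :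
    (hn w (A.compContinuousLinearMap L) (A.compContinuousLinearMap L)).re * w.det.re ≤
      (n ^ p * ‖A‖ ^ 2) * (w + H619.K.sq (tL L)).det.re := by
  have hpos : (w + H619.K.sq (tL L)).PosDef := hw.add_posSemidef (sq_posSemidef _)
  refine (hn_mono_re hw hpos (by rw [add_sub_cancel_left]; exact sq_posSemidef _) _).trans ?_
  refine mul_le_mul_of_nonneg_right ?_ (Complex.lt_def.mp hpos.det_pos).1.le
  obtain ⟨P, hP, hf⟩ := exists_frame hpos
  rw [hn_self_re hf]
  have h1 : ∀ κ : Fin p → Fin n,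
      ‖A.compContinuousLinearMap L fun i => fv P (κ i)‖ ^ 2 ≤ ‖A‖ ^ 2 := fun κ => by
    refine pow_le_pow_left₀ (norm_nonneg _) ?_ 2
    refine (A.le_opNorm _).trans (mul_le_of_le_one_right (norm_nonneg _) ?_)
    exact Finset.prod_le_one (fun i _ => norm_nonneg _) fun i _ => norm_fv_le hw L hP (κ i)
  have h2 : ∑ κ : Fin p → Fin n, ‖A.compContinuousLinearMap L fun i => fv P (κ i)‖ ^ 2 ≤
      n ^ p * ‖A‖ ^ 2 := by
    refine (Finset.sum_le_sum fun κ _ => h1 κ).trans (le_of_eq ?_)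
    simp
  have h3 : ((p.factorial : ℝ))⁻¹ ≤ 1 :=
    inv_le_one_of_one_le₀ (by exact_mod_cast p.factorial_pos)
  refine le_trans (mul_le_of_le_one_left ?_ h3) h2
  exact Finset.sum_nonneg fun κ _ => sq_nonneg _

/-- the error term -/
theorem wd_le {w : Mx n} (hw : w.PosDef) (hp : p ≤ n) {θ : Fin n → ℂ} {ε : ℝ}
    (h : ((ε : ℂ) • w - Matrix.of fun j k => θ j * conj (θ k)).PosSemidef) (B : Af n p)
    (D : Af n (p + 1)) :
    ‖hn w (wd θ B) D‖ ≤ Real.sqrt (|ε| * n) * ((hn w B B).re + (hn w D D).re) := by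
  have hB := (Complex.le_def.mp (hn_self_nonneg hw B)).1
  have hD := (Complex.le_def.mp (hn_self_nonneg hw D)).1
  rw [Complex.zero_re] at hB hD
  have h1 : (Matrix.of fun j k => θ j * conj (θ k)) = H619.K.sq fun _ : Unit => θ := by
    ext j k
    simp [H619.K.sq]
  rw [h1] at h
  have h2 := Ad_mono hw h B
  rw [Ad_sq, Ad_smul, H451.K1.Adw hp hw, Fintype.sum_unique] at h2
  have h3 := (Complex.le_def.mp h2).1
  rw [Complex.re_ofReal_mul, ← Complex.ofReal_natCast, Complex.re_ofReal_mul] at h3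
  have h4 : (hn w (wd θ B) (wd θ B)).re ≤ |ε| * n * (hn w B B).re := by
    refine h3.trans ?_
    rw [← mul_assoc]
    refine mul_le_mul_of_nonneg_right ?_ hB
    refine mul_le_mul (le_abs_self ε) ?_ (Nat.cast_nonneg _) (abs_nonneg ε)
    exact_mod_cast Nat.sub_le n p
  have h5 : (0 : ℝ) ≤ |ε| * n := by positivity
  refine abs_le_of_sq_le_sq' ?_ (by positivity) |>.2
  rw [mul_pow, Real.sq_sqrt h5]
  refine (hn_cs hw _ _).trans ((mul_le_mul_of_nonneg_right h4 hD).trans ?_)
  rw [mul_assoc]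
  refine mul_le_mul_of_nonneg_left ?_ h5
  nlinarith [mul_nonneg hB hD, sq_nonneg (hn w B B).re, sq_nonneg (hn w D D).re]

/-- `θ ∧ ι_v ω = θ(v) ω` in top degree -/
theorem wd_curry (θ : Fin (r + 1) → ℂ) (D : Af (r + 1) (r + 1)) (v : Cm (r + 1)) :
    wd θ (D.curryLeft v) = pv θ v • D := by
  ext ξ
  rw [ContinuousAlternatingMap.smul_apply, smul_eq_mul, exch (H136.K8.af_zero _) ξ v, wd_apply']
  refine Finset.sum_congr rfl fun i _ => ?_
  have h5 := map_front D i (Function.update ξ i v)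
  have h6 : i.removeNth (Function.update ξ i v) = i.removeNth ξ := by
    funext j
    exact Function.update_of_ne (Fin.succAbove_ne i j) _ _
  rw [Function.update_self, h6] at h5
  rw [h5, mul_left_comm]
  rfl

theorem wd_smul (θ : Fin n → ℂ) (c : ℂ) (B : Af n p) : wd θ (c • B) = c • wd θ B := by
  ext ξ
  simp only [ContinuousAlternatingMap.smul_apply, wd_apply, smul_eq_mul, Finset.mul_sum]
  exact Finset.sum_congr rfl fun i _ => by ring

theorem dhL_mul (φ : Cm n → ℝ) {c : Cm n → ℂ} {η : Cm n → Af n p} {z : Cm n}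
    (hc : DifferentiableAt ℝ c z) (hη : DifferentiableAt ℝ η z) :
    dhL φ (fun y => c y • η y) z = wd (fun a => dz a c z) (η z) + c z • dhL φ η z := by
  rw [dhL_eq, dhL_eq, ((hasW_of_diff hc).smul (hasW_of_diff hη)).pL_eq]
  ext v
  simp only [ContinuousAlternatingMap.alternatizeUncurryFin_apply, wd_apply,
    ContinuousAlternatingMap.add_apply, ContinuousAlternatingMap.smul_apply,
    ContinuousAlternatingMap.sub_apply, _root_.sub_apply, _root_.add_apply, _root_.smul_apply,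
    ContinuousLinearMap.smulRight_apply, smul_eq_mul, Finset.mul_sum, ← Finset.sum_add_distrib,
    zsmul_eq_mul]
  refine Finset.sum_congr rfl fun i _ => ?_
  have h1 : pL c z (v i) = ∑ a, dz a c z * v i a := by
    rw [pL_apply]
    exact Finset.sum_congr rfl fun a _ => by rw [dz_eq_dzV, smul_eq_mul, mul_comm]
  rw [h1]
  push_cast
  ring

theorem dhL_const (A : Af q p) (t : Cm q) : dhL (fun _ => 0) (fun _ => A) t = 0 := by
  rw [dhL_eq, (HasW.of_holo (hasFDerivAt_const A t)).pL_eq,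
    (HasW.of_holo (hasFDerivAt_const (((0 : ℝ) : ℂ)) t)).pL_eq]
  ext v
  simp [ContinuousAlternatingMap.alternatizeUncurryFin_apply]

theorem pull_sm {b : Cm n → Cm q} {z : Cm n} (hb : AnalyticAt ℂ b z) (A : Af q p) :
    ContDiffAt ℝ ∞ (fun y => A.compContinuousLinearMap (fderiv ℂ b y)) z := by
  refine H419.K.contDiffAt_ev fun s => ?_
  have h1 : AnalyticAt ℂ (fun y i => fderiv ℂ b y (Pi.single (s i) 1)) z :=
    analyticAt_pi_iff.2 fun i =>
      ((ContinuousLinearMap.apply ℂ (Cm q) (Pi.single (s i) (1 : ℂ) : Cm n)).analyticAt _).comp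
        hb.fderiv
  exact (A.toContinuousMultilinearMap.analyticAt.comp h1).restrictScalars.contDiffAt

theorem SL_pull (w : Cm n → Mx n) {b : Cm n → Cm q} {z : Cm n} (hb : AnalyticAt ℂ b z)
    (A : Af q (p + 1)) {η : Cm n → Af n (p + 1)}
    (h : η =ᶠ[𝓝 z] fun y => A.compContinuousLinearMap (fderiv ℂ b y)) : SL w η z = 0 := by
  have h1 := ((hasFDerivAt_const A z).continuousAlternatingMapCompContinuousLinearMap
    hb.fderiv.differentiableAt.hasFDerivAt)
  have h2 := (HasW.of_holo h1).congr h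
  unfold SL Lam
  simp only [h2.dbV]
  ext v
  simp

/-- the derivative of the pull-back of `χ ι_v dt` -/
theorem dhL_loc {b : Cm n → Cm (r + 1)} {φ : Cm n → ℝ} {χ : Cm (r + 1) → ℂ} {τ : Cm n → Af n r}
    {z : Cm n} (hb : AnalyticAt ℂ b z) (hφ : φ =ᶠ[𝓝 z] fun _ => 0)
    (hχ : DifferentiableAt ℝ χ (b z)) (v : Cm (r + 1))
    (hτ : τ =ᶠ[𝓝 z] fun y =>
      χ (b y) • ((dt (r + 1)).curryLeft v).compContinuousLinearMap (fderiv ℂ b y)) :
    dhL φ τ z = pL χ (b z) v • dF b z := by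
  have h1 := H136.K8.dhL_pull (a := fun _ => 1) (φ := φ) (φ' := fun _ => 0) (η := τ)
    (η' := fun t => χ t • (dt (r + 1)).curryLeft v) hb analyticAt_const one_ne_zero
    ((differentiableAt_const (0 : ℝ)).congr_of_eventuallyEq hφ) (differentiableAt_const _)
    (by filter_upwards [hφ] with y hy; simp [hy]) (hχ.smul_const _)
    (by filter_upwards [hτ] with y hy; rw [hy, one_smul]; rfl)
  rw [h1, one_smul, dhL_mul _ hχ (differentiableAt_const _), dhL_const, wd_curry]
  have h2 : pv (fun a => dz a χ (b z)) v = pL χ (b z) v := by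
    rw [pL_apply]
    exact Finset.sum_congr rfl fun a _ => by rw [← dz_eq_dzV, smul_eq_mul, mul_comm]
  rw [h2]
  ext ξ
  simp [dF]

theorem pL_re {χ : Cm q → ℝ} {t : Cm q} (hχ : DifferentiableAt ℝ χ t) (v : Cm q) :
    2 * (pL (fun t => (χ t : ℂ)) t v).re = fderiv ℝ χ t v := by
  have h1 : HasFDerivAt (fun t => (χ t : ℂ)) (Complex.ofRealCLM.comp (fderiv ℝ χ t)) t :=
    Complex.ofRealCLM.hasFDerivAt.comp t hχ.hasFDerivAt
  have h2 := hasW_of_diff h1.differentiableAt
  have h3 := h2.fd v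
  have h4 := h2.fd (Complex.I • v)
  rw [cjm_smul, h1.fderiv, (pL _ t).map_smul, (pB _ t).map_smul] at h4
  rw [h1.fderiv] at h3
  have h5 := congrArg Complex.re h3
  have h6 := congrArg Complex.im h4
  simp at h5 h6
  linarith

end Vale.Agent.P284Z.L.S2a
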